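import Vale.Agent.P213.Spec

/-!
# P213: the interval lemma for orientals (helper5)

A cell of an oriental with endpoints `i` and `j` only uses vertices in `[i, j]`: in a nonzero
positive chain the extreme element (for a binary weight) has a face on which nothing cancels.
-/

namespace Vale.Agent.P213

noncomputable section

namespace Interval

variable {a : ℕ}

/-- The coefficient of a face in the boundary of a basis element. -/
theorem d_apply (s t : (simplexADC a).B) :
    (simplexADC a).d s t =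
      ∑ x ∈ s.1, if s.1.erase x = t.1 then (-1 : ℤ) ^ (s.1.filter (· < x)).card else 0 := by
  show (∑ x ∈ s.1, if h : (s.1.erase x).Nonempty then
      Finsupp.single (⟨s.1.erase x, h⟩ : (simplexADC a).B) ((-1 : ℤ) ^ (s.1.filter (· < x)).card) else 0) t = _
  rw [Finsupp.finsetSum_apply]
  refine Finset.sum_congr rfl fun x _ => ?_
  by_cases h : (s.1.erase x).Nonempty
  · rw [dif_pos h, Finsupp.single_apply]
    exact if_congr (by rw [Subtype.ext_iff]) rfl rfl
  · rw [dif_neg h, if_neg fun (e : s.1.erase x = t.1) => h (by rw [e]; exact t.2)]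
    rfl

/-- If every element of a positive chain having `t` as a face has it with the sign `ε`, and one
of them does, then `t` occurs in the boundary. -/
theorem bd_apply_ne_zero (c : (simplexADC a).B →₀ ℕ) (t s : (simplexADC a).B) (ε : ℤ) (hε : ε ^ 2 = 1) (hs : c s ≠ 0)
    (hst : (simplexADC a).d s t = ε)
    (h : ∀ s', c s' ≠ 0 → (simplexADC a).d s' t = 0 ∨ (simplexADC a).d s' t = ε) :
    (simplexADC a).bd c t ≠ 0 := by
  have e : (simplexADC a).bd c t = ∑ s' ∈ c.support, (c s' : ℤ) * (simplexADC a).d s' t := by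
    rw [ADC.bd, Finsupp.sum, Finsupp.finsetSum_apply]
    exact Finset.sum_congr rfl fun s' _ => by rw [Finsupp.smul_apply, nsmul_eq_mul]
  have hterm : ∀ s' ∈ c.support, 0 ≤ ε * ((c s' : ℤ) * (simplexADC a).d s' t) := fun s' hs' => by
    rcases h s' (Finsupp.mem_support_iff.1 hs') with h0 | h0 <;> rw [h0]
    · simp
    · rw [mul_left_comm, ← sq, hε]; simp
  have hpos : 0 < ∑ s' ∈ c.support, ε * ((c s' : ℤ) * (simplexADC a).d s' t) :=
    Finset.sum_pos' hterm ⟨s, Finsupp.mem_support_iff.2 hs, by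
      rw [hst, mul_left_comm, ← sq, hε, mul_one]
      exact_mod_cast Nat.pos_of_ne_zero hs⟩
  rw [← Finset.mul_sum, ← e] at hpos
  intro h0
  simp [h0] at hpos

/-- Adding the missing vertex back. -/
theorem of_d_ne_zero {s t : (simplexADC a).B} (h : (simplexADC a).d s t ≠ 0) :
    ∃ x, x ∉ t.1 ∧ s.1 = insert x t.1 ∧
      (simplexADC a).d s t = (-1 : ℤ) ^ (t.1.filter (· < x)).card := by
  rw [d_apply] at h
  obtain ⟨x, hx, hx'⟩ := Finset.exists_ne_zero_of_sum_ne_zero h
  have hxt : s.1.erase x = t.1 := by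
    by_contra hc
    exact hx' (if_neg hc)
  refine ⟨x, hxt ▸ Finset.notMem_erase x _, by rw [← hxt, Finset.insert_erase hx], ?_⟩
  rw [d_apply, Finset.sum_eq_single_of_mem x hx, if_pos hxt, ← hxt, Finset.filter_erase,
    Finset.erase_eq_of_notMem (by simp)]
  intro y hy hyx
  rw [if_neg]
  intro hyt
  have : y ∈ s.1.erase x := Finset.mem_erase.2 ⟨hyx, hy⟩
  rw [hxt, ← hyt] at this
  simp at this

/-- A positive chain whose boundary only uses vertices `≥ i` only uses such vertices itself. -/
theorem lower_of_bd {k : ℕ} (c : (simplexADC a).B →₀ ℕ) (hdeg : ∀ s, c s ≠ 0 → s.1.card = k + 2)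
    (i : Fin (a + 1)) (hbd : ∀ t : (simplexADC a).B, (simplexADC a).bd c t ≠ 0 → ∀ x ∈ t.1, i ≤ x) :
    ∀ s, c s ≠ 0 → ∀ x ∈ s.1, i ≤ x := by
  classical
  intro s₀ hs₀ x₀ hx₀
  by_contra hlt
  push Not at hlt
  let w : (simplexADC a).B → ℕ := fun s => ∑ x ∈ s.1, 2 ^ (a - x.1)
  obtain ⟨s, hs, hmax⟩ := (c.support.filter fun s => ∃ x ∈ s.1, x < i).exists_max_image w
    ⟨s₀, Finset.mem_filter.2 ⟨Finsupp.mem_support_iff.2 hs₀, x₀, hx₀, hlt⟩⟩
  obtain ⟨hsc, x, hx, hxi⟩ := Finset.mem_filter.1 hs
  rw [Finsupp.mem_support_iff] at hsc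
  have hne : s.1.Nonempty := s.2
  set v := s.1.min' hne
  set M := s.1.max' hne with hM
  have hv : v < M := Finset.min'_lt_max'_of_card _ (by rw [hdeg s hsc]; omega)
  have hvi : v < i := (Finset.min'_le _ _ hx).trans_lt hxi
  have hvt : v ∈ s.1.erase M := Finset.mem_erase.2 ⟨hv.ne, Finset.min'_mem _ _⟩
  let t : (simplexADC a).B := ⟨s.1.erase M, v, hvt⟩
  have htcard : t.1.card = k + 1 := by
    show (s.1.erase M).card = _
    rw [Finset.card_erase_of_mem (Finset.max'_mem _ _), hdeg s hsc]; omega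
  have hfilt : ∀ y, M ≤ y → t.1.filter (· < y) = t.1 := fun y hy =>
    Finset.filter_true_of_mem fun z hz =>
      (lt_of_le_of_ne (Finset.le_max' _ _ (Finset.mem_of_mem_erase hz))
        (Finset.ne_of_mem_erase hz)).trans_le hy
  have hsign : ∀ s', c s' ≠ 0 → (simplexADC a).d s' t = 0 ∨
      (simplexADC a).d s' t = (-1 : ℤ) ^ (k + 1) := by
    intro s' hs'
    by_cases h0 : (simplexADC a).d s' t = 0
    · exact .inl h0
    obtain ⟨y, hy, hys, hyd⟩ := of_d_ne_zero h0
    rcases le_or_gt M y with hMy | hMy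
    · exact .inr (by rw [hyd, hfilt y hMy, htcard])
    exfalso
    have hs'mem : s' ∈ c.support.filter fun s => ∃ x ∈ s.1, x < i :=
      Finset.mem_filter.2 ⟨Finsupp.mem_support_iff.2 hs', v,
        by rw [hys]; exact Finset.mem_insert_of_mem hvt, hvi⟩
    have h1 : w s' = 2 ^ (a - y.1) + ∑ z ∈ t.1, 2 ^ (a - z.1) := by
      simp only [w, hys, Finset.sum_insert hy]
    have h2 : w s = 2 ^ (a - M.1) + ∑ z ∈ t.1, 2 ^ (a - z.1) :=
      (Finset.add_sum_erase s.1 (fun z => 2 ^ (a - z.1)) (Finset.max'_mem _ _)).symm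
    have h3 : 2 ^ (a - M.1) < 2 ^ (a - y.1) :=
      Nat.pow_lt_pow_right one_lt_two (by have := M.2; omega)
    have := hmax s' hs'mem
    omega
  have hst : (simplexADC a).d s t = (-1 : ℤ) ^ (k + 1) := by
    rw [d_apply, Finset.sum_eq_single_of_mem M (Finset.max'_mem _ _)]
    · rw [if_pos rfl, ← htcard]
      congr 1
      rw [← hfilt M le_rfl]
      show _ = ((s.1.erase M).filter (· < M)).card
      rw [Finset.filter_erase, Finset.erase_eq_of_notMem (by simp)]
    · intro y hy hyM
      rw [if_neg]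
      intro e
      have : M ∈ s.1.erase y := Finset.mem_erase.2 ⟨fun e => hyM e.symm, Finset.max'_mem _ _⟩
      rw [show s.1.erase y = s.1.erase M from e] at this
      simp at this
  exact absurd (hbd t (bd_apply_ne_zero c t s _ (by rw [← pow_mul, mul_comm, pow_mul]; simp) hsc hst
    hsign) v hvt) (not_le.2 hvi)

/-- A positive chain whose boundary only uses vertices `≤ j` only uses such vertices itself. -/
theorem upper_of_bd {k : ℕ} (c : (simplexADC a).B →₀ ℕ) (hdeg : ∀ s, c s ≠ 0 → s.1.card = k + 2)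
    (j : Fin (a + 1)) (hbd : ∀ t : (simplexADC a).B, (simplexADC a).bd c t ≠ 0 → ∀ x ∈ t.1, x ≤ j) :
    ∀ s, c s ≠ 0 → ∀ x ∈ s.1, x ≤ j := by
  classical
  intro s₀ hs₀ x₀ hx₀
  by_contra hlt
  push Not at hlt
  let w : (simplexADC a).B → ℕ := fun s => ∑ x ∈ s.1, 2 ^ x.1
  obtain ⟨s, hs, hmax⟩ := (c.support.filter fun s => ∃ x ∈ s.1, j < x).exists_max_image w
    ⟨s₀, Finset.mem_filter.2 ⟨Finsupp.mem_support_iff.2 hs₀, x₀, hx₀, hlt⟩⟩
  obtain ⟨hsc, x, hx, hxi⟩ := Finset.mem_filter.1 hs
  rw [Finsupp.mem_support_iff] at hsc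
  have hne : s.1.Nonempty := s.2
  set m := s.1.min' hne
  set v := s.1.max' hne
  have hv : m < v := Finset.min'_lt_max'_of_card _ (by rw [hdeg s hsc]; omega)
  have hvj : j < v := hxi.trans_le (Finset.le_max' _ _ hx)
  have hvt : v ∈ s.1.erase m := Finset.mem_erase.2 ⟨hv.ne', Finset.max'_mem _ _⟩
  let t : (simplexADC a).B := ⟨s.1.erase m, v, hvt⟩
  have hfilt : ∀ y, y ≤ m → (t.1.filter (· < y)).card = 0 := fun y hy => by
    rw [Finset.card_eq_zero, Finset.filter_eq_empty_iff]
    intro z hz
    exact not_lt.2 (hy.trans (Finset.min'_le _ _ (Finset.mem_of_mem_erase hz)))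
  have hsign : ∀ s', c s' ≠ 0 → (simplexADC a).d s' t = 0 ∨ (simplexADC a).d s' t = 1 := by
    intro s' hs'
    by_cases h0 : (simplexADC a).d s' t = 0
    · exact .inl h0
    obtain ⟨y, hy, hys, hyd⟩ := of_d_ne_zero h0
    rcases le_or_gt y m with hMy | hMy
    · exact .inr (by rw [hyd, hfilt y hMy, pow_zero])
    exfalso
    have hs'mem : s' ∈ c.support.filter fun s => ∃ x ∈ s.1, j < x :=
      Finset.mem_filter.2 ⟨Finsupp.mem_support_iff.2 hs', v,
        by rw [hys]; exact Finset.mem_insert_of_mem hvt, hvj⟩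
    have h1 : w s' = 2 ^ y.1 + ∑ z ∈ t.1, 2 ^ z.1 := by
      simp only [w, hys, Finset.sum_insert hy]
    have h2 : w s = 2 ^ m.1 + ∑ z ∈ t.1, 2 ^ z.1 :=
      (Finset.add_sum_erase s.1 (fun z => 2 ^ z.1) (Finset.min'_mem _ _)).symm
    have h3 : 2 ^ m.1 < 2 ^ y.1 := Nat.pow_lt_pow_right one_lt_two hMy
    have := hmax s' hs'mem
    omega
  have hst : (simplexADC a).d s t = 1 := by
    rw [d_apply, Finset.sum_eq_single_of_mem m (Finset.min'_mem _ _)]
    · rw [if_pos rfl, Finset.card_eq_zero.2, pow_zero]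
      exact Finset.filter_eq_empty_iff.2 fun z hz => not_lt.2 (Finset.min'_le _ _ hz)
    · intro y hy hyM
      rw [if_neg]
      intro e
      have : m ∈ s.1.erase y := Finset.mem_erase.2 ⟨fun e => hyM e.symm, Finset.min'_mem _ _⟩
      rw [show s.1.erase y = s.1.erase m from e] at this
      simp at this
  exact absurd (hbd t (bd_apply_ne_zero c t s 1 (one_pow 2) hsc hst hsign) v hvt) (not_le.2 hvj)

/-- A positive chain of degree zero and augmentation one is a vertex. -/
theorem exists_vertex (c : (simplexADC a).B →₀ ℕ) (hdeg : ∀ s, c s ≠ 0 → (simplexADC a).deg s = 0)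
    (haug : c.sum (fun _ r => r) = 1) :
    ∃ i : Fin (a + 1), c = Finsupp.single ⟨{i}, Finset.singleton_nonempty i⟩ 1 := by
  classical
  have hne : c.support.Nonempty := by
    rw [Finset.nonempty_iff_ne_empty]
    intro h
    simp [Finsupp.sum, h] at haug
  obtain ⟨s, hs⟩ := hne
  have hs' := Finsupp.mem_support_iff.1 hs
  have hle : ∀ t ∈ c.support, c t ≤ 1 := fun t ht =>
    haug ▸ Finset.single_le_sum (f := fun t => c t) (fun _ _ => Nat.zero_le _) ht
  have hcs : c s = 1 := by have := hle s hs; omega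
  have hsupp : c.support = {s} := by
    refine Finset.eq_singleton_iff_unique_mem.2 ⟨hs, fun t ht => ?_⟩
    by_contra hts
    have := Finset.sum_le_sum_of_subset (f := fun t => c t)
      (show ({t, s} : Finset (simplexADC a).B) ⊆ c.support by simp [Finset.insert_subset_iff, hs, ht])
    rw [Finset.sum_pair hts] at this
    have := Finsupp.mem_support_iff.1 ht
    rw [Finsupp.sum] at haug
    omega
  have hc : s.1.card = 1 := by
    have := hdeg s hs'
    have := s.2.card_pos
    change s.1.card - 1 = 0 at *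
    omega
  obtain ⟨i, hi⟩ := Finset.card_eq_one.1 hc
  refine ⟨i, (Finsupp.support_eq_singleton.1 hsupp).2.trans ?_⟩
  rw [hcs]
  exact congrArg (fun t => Finsupp.single t 1) (Subtype.ext hi)

end Interval

open Vale.Agent.P213.Interval in
/-- A cell of an oriental has vertices as endpoints and only uses vertices between them. -/
theorem interval : Spec.Interval := by
  intro a p
  obtain ⟨i, hi⟩ := exists_vertex (p.x 0 false) (p.deg_eq 0 false) (p.aug false)
  obtain ⟨j, hj⟩ := exists_vertex (p.x 0 true) (p.deg_eq 0 true) (p.aug true)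
  have hcard : ∀ k e (s : (simplexADC a).B), p.x (k + 1) e s ≠ 0 → s.1.card = k + 2 := by
    intro k e s hs
    have h : s.1.card - 1 = k + 1 := p.deg_eq (k + 1) e s hs
    omega
  have hsupp : ∀ k e (t : (simplexADC a).B), (simplexADC a).bd (p.x (k + 1) e) t ≠ 0 →
      p.x k true t ≠ 0 ∨ p.x k false t ≠ 0 := by
    intro k e t ht
    rw [p.boundary] at ht
    by_contra hc
    push Not at hc
    simp [ADC.toZ, hc.1, hc.2] at ht
  have hvert : ∀ e (s : (simplexADC a).B), p.x 0 e s ≠ 0 → s.1 = {i} ∨ s.1 = {j} := by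
    intro e s hs
    cases e
    · rw [hi] at hs
      exact .inl (congrArg Subtype.val (Finsupp.single_apply_ne_zero.1 hs).1)
    · rw [hj] at hs
      exact .inr (congrArg Subtype.val (Finsupp.single_apply_ne_zero.1 hs).1)
  have hlow : ∀ k e s, p.x k e s ≠ 0 → ∀ x ∈ s.1, min i j ≤ x := by
    intro k
    induction k with
    | zero =>
      intro e s hs x hx
      rcases hvert e s hs with h | h <;> rw [h, Finset.mem_singleton] at hx <;> subst hx <;> simp
    | succ k ih =>
      intro e
      refine lower_of_bd _ (hcard k e) _ fun t ht => ?_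
      rcases hsupp k e t ht with h | h
      · exact ih true t h
      · exact ih false t h
  have hupp : ∀ k e s, p.x k e s ≠ 0 → ∀ x ∈ s.1, x ≤ max i j := by
    intro k
    induction k with
    | zero =>
      intro e s hs x hx
      rcases hvert e s hs with h | h <;> rw [h, Finset.mem_singleton] at hx <;> subst hx <;> simp
    | succ k ih =>
      intro e
      refine upper_of_bd _ (hcard k e) _ fun t ht => ?_
      rcases hsupp k e t ht with h | h
      · exact ih true t h
      · exact ih false t h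
  have hij : i ≤ j := by
    by_contra hc
    push Not at hc
    classical
    -- the face `{j}` of the first edge would occur with the wrong sign
    have hbd : (simplexADC a).bd (p.x 1 false) ⟨{j}, Finset.singleton_nonempty j⟩ = 1 := by
      rw [p.boundary 0 false, hi, hj]
      simp [ADC.toZ, hc.ne']
    have hterm : ∀ s, p.x 1 false s ≠ 0 →
        (simplexADC a).d s ⟨{j}, Finset.singleton_nonempty j⟩ ≤ 0 := by
      intro s hs
      by_contra hp
      push Not at hp
      obtain ⟨x, hx, hxs, hd⟩ := of_d_ne_zero hp.ne'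
      have hxj : j ≤ x := by
        have := hlow 1 false s hs x (by rw [hxs]; exact Finset.mem_insert_self _ _)
        rwa [min_eq_right hc.le] at this
      rw [Finset.mem_singleton] at hx
      rw [hd, Finset.filter_singleton, if_pos (lt_of_le_of_ne hxj (Ne.symm hx))] at hp
      simp at hp
    have hle : (simplexADC a).bd (p.x 1 false) ⟨{j}, Finset.singleton_nonempty j⟩ ≤ 0 := by
      rw [ADC.bd, Finsupp.sum, Finsupp.finsetSum_apply]
      refine Finset.sum_nonpos fun s hs => ?_
      rw [Finsupp.smul_apply, nsmul_eq_mul]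
      exact mul_nonpos_of_nonneg_of_nonpos (Nat.cast_nonneg _)
        (hterm s (Finsupp.mem_support_iff.1 hs))
    omega
  refine ⟨i, j, hi, hj, hij, fun k e s hs x hx => ⟨?_, ?_⟩⟩
  · simpa [min_eq_left hij] using hlow k e s hs x hx
  · simpa [max_eq_right hij] using hupp k e s hs x hx

end

end Vale.Agent.P213
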