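import Vale.Agent.P213.Spec

/-!
# P213: restriction to order-connected sets of labels has a right adjoint

For `D` order-connected in `L` and an omega-category `Z`, the omega-category `R` has as objects the
pairs of an element of `D` and an object of `Z`, and the elements of `L` outside `D`. Between
objects labelled in `D` its cells are those of `Z`; otherwise there is one cell as soon as the
labels increase.
-/

namespace Vale.Agent.P213

open CategoryTheory

universe u v

noncomputable section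

namespace Restr

variable {L : Type u} [PartialOrder L] {D : Set L} {Z : OmCat.{u}}

/-- A cell of the right adjoint: two labels, and cells of `Z` wherever they lie in `D`. -/
structure RCell (D : Set L) (Z : OmCat.{u}) : Type u where
  l : L
  l' : L
  le : l ≤ l'
  src : l ∈ D → Z.carrier
  tgt : l' ∈ D → Z.carrier
  mid : l ∈ D → l' ∈ D → Z.carrier
  src_obj : ∀ h, Z.s 0 (src h) = src h
  tgt_obj : ∀ h, Z.s 0 (tgt h) = tgt h
  src_mid : ∀ h h', Z.s 0 (mid h h') = src h
  tgt_mid : ∀ h h', Z.t 0 (mid h h') = tgt h'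

theorem RCell.ext' {a b : RCell D Z} (hl : a.l = b.l) (hl' : a.l' = b.l')
    (hs : ∀ h h', a.src h = b.src h') (ht : ∀ h h', a.tgt h = b.tgt h')
    (hm : ∀ h k h' k', a.mid h k = b.mid h' k') : a = b := by
  cases a; cases b
  cases hl; cases hl'
  congr 1
  · funext h; exact hs h h
  · funext h; exact ht h h
  · funext h k; exact hm h k h k

theorem t_obj {z : Z.carrier} (h : Z.s 0 z = z) : Z.t 0 z = z := by
  rw [← h, Z.ts, if_neg (lt_irrefl 0)]

theorem obj_of_t (z : Z.carrier) : Z.s 0 (Z.t 0 z) = Z.t 0 z := by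
  rw [Z.st, if_neg (lt_irrefl 0)]

theorem obj_of_s (z : Z.carrier) : Z.s 0 (Z.s 0 z) = Z.s 0 z := by
  rw [Z.ss]; rfl

/-- An object. -/
def obj (a : L) (z : a ∈ D → Z.carrier) (hz : ∀ h, Z.s 0 (z h) = z h) : RCell D Z where
  l := a
  l' := a
  le := le_rfl
  src := z
  tgt := z
  mid h _ := z h
  src_obj := hz
  tgt_obj := hz
  src_mid h _ := hz h
  tgt_mid h _ := t_obj (hz h)

/-- The source in dimension `i`. -/
def sFace : ℕ → RCell D Z → RCell D Z
  | 0, x => obj x.l x.src x.src_obj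
  | i + 1, x =>
    { l := x.l
      l' := x.l'
      le := x.le
      src := x.src
      tgt := x.tgt
      mid := fun h h' => Z.s (i + 1) (x.mid h h')
      src_obj := x.src_obj
      tgt_obj := x.tgt_obj
      src_mid := fun h h' => by
        rw [Z.ss, min_eq_left (Nat.zero_le _)]; exact x.src_mid h h'
      tgt_mid := fun h h' => by
        rw [Z.ts, if_pos (Nat.succ_pos i)]; exact x.tgt_mid h h' }

/-- The target in dimension `i`. -/
def tFace : ℕ → RCell D Z → RCell D Z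
  | 0, x => obj x.l' x.tgt x.tgt_obj
  | i + 1, x =>
    { l := x.l
      l' := x.l'
      le := x.le
      src := x.src
      tgt := x.tgt
      mid := fun h h' => Z.t (i + 1) (x.mid h h')
      src_obj := x.src_obj
      tgt_obj := x.tgt_obj
      src_mid := fun h h' => by
        rw [Z.st, if_pos (Nat.succ_pos i)]; exact x.src_mid h h'
      tgt_mid := fun h h' => by
        rw [Z.tt, min_eq_left (Nat.zero_le _)]; exact x.tgt_mid h h' }

theorem tgt_eq_src {x y : RCell D Z} (e : tFace 0 x = sFace 0 y) (h : x.l' ∈ D) (h' : y.l ∈ D) :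
    x.tgt h = y.src h' := by
  obtain ⟨xl, xl', xle, xs, xt, xm, x1, x2, x3, x4⟩ := x
  obtain ⟨yl, yl', yle, ys, yt, ym, y1, y2, y3, y4⟩ := y
  simp only [tFace, sFace, obj, RCell.mk.injEq] at e
  obtain ⟨rfl, -, hst, -⟩ := e
  exact congrFun (eq_of_heq hst) h

theorem l'_eq_l {x y : RCell D Z} (e : tFace 0 x = sFace 0 y) : x.l' = y.l := congrArg RCell.l e

theorem l_eq {i : ℕ} {x y : RCell D Z} (e : tFace (i + 1) x = sFace (i + 1) y) : x.l = y.l :=
  (congrArg RCell.l e :)

theorem l'_eq {i : ℕ} {x y : RCell D Z} (e : tFace (i + 1) x = sFace (i + 1) y) : x.l' = y.l' :=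
  (congrArg RCell.l' e :)

theorem src_eq {i : ℕ} {x y : RCell D Z} (e : tFace (i + 1) x = sFace (i + 1) y) (h : x.l ∈ D)
    (h' : y.l ∈ D) : x.src h = y.src h' := by
  obtain ⟨xl, xl', xle, xs, xt, xm, x1, x2, x3, x4⟩ := x
  obtain ⟨yl, yl', yle, ys, yt, ym, y1, y2, y3, y4⟩ := y
  simp only [tFace, sFace, RCell.mk.injEq] at e
  obtain ⟨rfl, rfl, hs, -, -⟩ := e
  exact congrFun (eq_of_heq hs) h

theorem tgt_eq {i : ℕ} {x y : RCell D Z} (e : tFace (i + 1) x = sFace (i + 1) y) (h : x.l' ∈ D)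
    (h' : y.l' ∈ D) : x.tgt h = y.tgt h' := by
  obtain ⟨xl, xl', xle, xs, xt, xm, x1, x2, x3, x4⟩ := x
  obtain ⟨yl, yl', yle, ys, yt, ym, y1, y2, y3, y4⟩ := y
  simp only [tFace, sFace, RCell.mk.injEq] at e
  obtain ⟨rfl, rfl, -, ht, -⟩ := e
  exact congrFun (eq_of_heq ht) h

theorem mid_eq {i : ℕ} {x y : RCell D Z} (e : tFace (i + 1) x = sFace (i + 1) y) (h : x.l ∈ D)
    (k : x.l' ∈ D) (h' : y.l ∈ D) (k' : y.l' ∈ D) :
    Z.t (i + 1) (x.mid h k) = Z.s (i + 1) (y.mid h' k') := by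
  obtain ⟨xl, xl', xle, xs, xt, xm, x1, x2, x3, x4⟩ := x
  obtain ⟨yl, yl', yle, ys, yt, ym, y1, y2, y3, y4⟩ := y
  simp only [tFace, sFace, RCell.mk.injEq] at e
  obtain ⟨rfl, rfl, -, -, hm⟩ := e
  exact congrFun (congrFun (eq_of_heq hm) h) k

variable (hD : D.OrdConnected)

include hD in
theorem mem_mid {x y : RCell D Z} (e : tFace 0 x = sFace 0 y) (h : x.l ∈ D) (k : y.l' ∈ D) :
    x.l' ∈ D ∧ y.l ∈ D := by
  have hm : x.l' ∈ D := hD.out h k ⟨x.le, by rw [l'_eq_l e]; exact y.le⟩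
  exact ⟨hm, l'_eq_l e ▸ hm⟩

include hD in
theorem mid_eq_zero {x y : RCell D Z} (e : tFace 0 x = sFace 0 y) (h : x.l ∈ D) (k : y.l' ∈ D) :
    Z.t 0 (x.mid h (mem_mid hD e h k).1) = Z.s 0 (y.mid (mem_mid hD e h k).2 k) := by
  rw [x.tgt_mid, y.src_mid]
  exact tgt_eq_src e _ _

/-- The composite of composable cells. -/
def compR : ∀ (n : ℕ) (x y : RCell D Z), tFace n x = sFace n y → RCell D Z
  | 0, x, y, e =>
    { l := x.l
      l' := y.l'
      le := x.le.trans (le_trans (le_of_eq (l'_eq_l e)) y.le)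
      src := x.src
      tgt := y.tgt
      mid := fun h k =>
        Z.comp 0 (x.mid h (mem_mid hD e h k).1) (y.mid (mem_mid hD e h k).2 k)
      src_obj := x.src_obj
      tgt_obj := y.tgt_obj
      src_mid := fun h k => by
        rw [Z.s_comp 0 0 _ _ (mid_eq_zero hD e h k), if_pos le_rfl]; exact x.src_mid _ _
      tgt_mid := fun h k => by
        rw [Z.t_comp 0 0 _ _ (mid_eq_zero hD e h k), if_pos le_rfl]; exact y.tgt_mid _ _ }
  | n + 1, x, y, e =>
    { l := x.l
      l' := x.l'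
      le := x.le
      src := x.src
      tgt := x.tgt
      mid := fun h k => Z.comp (n + 1) (x.mid h k) (y.mid (l_eq e ▸ h) (l'_eq e ▸ k))
      src_obj := x.src_obj
      tgt_obj := x.tgt_obj
      src_mid := fun h k => by
        rw [Z.s_comp 0 _ _ _ (mid_eq e h k _ _), if_pos (Nat.zero_le _)]
        exact x.src_mid _ _
      tgt_mid := fun h k => by
        rw [Z.t_comp 0 _ _ _ (mid_eq e h k _ _), if_pos (Nat.zero_le _), y.tgt_mid,
          tgt_eq e k (l'_eq e ▸ k)] }

open Classical in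
/-- The composite, the first cell if they are not composable. -/
def compT (n : ℕ) (x y : RCell D Z) : RCell D Z :=
  if e : tFace n x = sFace n y then compR hD n x y e else x

theorem compT_of {n : ℕ} {x y : RCell D Z} (e : tFace n x = sFace n y) :
    compT hD n x y = compR hD n x y e := dif_pos e

theorem ss' (i j : ℕ) (x : RCell D Z) : sFace i (sFace j x) = sFace (min i j) x := by
  cases i with
  | zero =>
    rw [Nat.zero_min]
    cases j <;> rfl
  | succ i =>
    cases j with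
    | zero =>
      exact RCell.ext' rfl rfl (fun _ _ => rfl) (fun _ _ => rfl)
        fun h _ _ _ => by
          show Z.s (i + 1) (x.src h) = x.src h
          rw [← x.src_obj h, Z.ss, min_eq_right (Nat.zero_le _)]
    | succ j =>
      rw [Nat.succ_min_succ]
      exact RCell.ext' rfl rfl (fun _ _ => rfl) (fun _ _ => rfl) fun h k _ _ => by
        show Z.s (i + 1) (Z.s (j + 1) _) = Z.s (min i j + 1) _
        rw [Z.ss, Nat.succ_min_succ]

theorem tt' (i j : ℕ) (x : RCell D Z) : tFace i (tFace j x) = tFace (min i j) x := by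
  cases i with
  | zero =>
    rw [Nat.zero_min]
    cases j <;> rfl
  | succ i =>
    cases j with
    | zero =>
      exact RCell.ext' rfl rfl (fun _ _ => rfl) (fun _ _ => rfl)
        fun h _ _ _ => by
          show Z.t (i + 1) (x.tgt h) = x.tgt h
          have e := t_obj (x.tgt_obj h)
          rw [← e, Z.tt, min_eq_right (Nat.zero_le _)]
    | succ j =>
      rw [Nat.succ_min_succ]
      exact RCell.ext' rfl rfl (fun _ _ => rfl) (fun _ _ => rfl) fun h k _ _ => by
        show Z.t (i + 1) (Z.t (j + 1) _) = Z.t (min i j + 1) _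
        rw [Z.tt, Nat.succ_min_succ]

theorem st' (i j : ℕ) (x : RCell D Z) :
    sFace i (tFace j x) = if i < j then sFace i x else tFace j x := by
  cases i with
  | zero => cases j <;> rfl
  | succ i =>
    cases j with
    | zero =>
      rw [if_neg (Nat.not_lt_zero _)]
      exact RCell.ext' rfl rfl (fun _ _ => rfl) (fun _ _ => rfl) fun h _ _ _ => by
        show Z.s (i + 1) (x.tgt h) = x.tgt h
        rw [← x.tgt_obj h, Z.ss, min_eq_right (Nat.zero_le _)]
    | succ j =>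
      split_ifs with hij <;>
        exact RCell.ext' rfl rfl (fun _ _ => rfl) (fun _ _ => rfl) fun h k _ _ => by
          show Z.s (i + 1) (Z.t (j + 1) _) = _
          rw [Z.st]
          simp [sFace, tFace, hij]

theorem ts' (i j : ℕ) (x : RCell D Z) :
    tFace i (sFace j x) = if i < j then tFace i x else sFace j x := by
  cases i with
  | zero => cases j <;> rfl
  | succ i =>
    cases j with
    | zero =>
      rw [if_neg (Nat.not_lt_zero _)]
      exact RCell.ext' rfl rfl (fun _ _ => rfl) (fun _ _ => rfl) fun h _ _ _ => by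
        show Z.t (i + 1) (x.src h) = x.src h
        rw [← x.src_obj h, Z.ts, if_neg (by omega)]
    | succ j =>
      split_ifs with hij <;>
        exact RCell.ext' rfl rfl (fun _ _ => rfl) (fun _ _ => rfl) fun h k _ _ => by
          show Z.t (i + 1) (Z.s (j + 1) _) = _
          rw [Z.ts]
          simp [sFace, tFace, hij]

theorem sComp (i n : ℕ) (x y : RCell D Z) (e : tFace n x = sFace n y) :
    sFace i (compT hD n x y) =
      if i ≤ n then sFace i x else compT hD n (sFace i x) (sFace i y) := by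
  rw [compT_of hD e]
  split_ifs with hin
  · cases n with
    | zero => obtain rfl : i = 0 := Nat.le_zero.1 hin; rfl
    | succ n =>
      cases i with
      | zero => rfl
      | succ i =>
        refine RCell.ext' rfl rfl (fun _ _ => rfl) (fun _ _ => rfl) fun h k _ _ => ?_
        show Z.s (i + 1) (Z.comp (n + 1) _ _) = Z.s (i + 1) _
        rw [Z.s_comp _ _ _ _ (mid_eq e h k _ _), if_pos hin]
  · have e' : tFace n (sFace i x) = sFace n (sFace i y) := by
      rw [ts', if_pos (by omega), ss', min_eq_left (by omega), e]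
    rw [compT_of hD e']
    obtain ⟨i, rfl⟩ : ∃ i', i = i' + 1 := ⟨i - 1, by omega⟩
    cases n with
    | zero =>
      refine RCell.ext' rfl rfl (fun _ _ => rfl) (fun _ _ => rfl) fun h k _ _ => ?_
      show Z.s (i + 1) (Z.comp 0 _ _) = _
      rw [Z.s_comp _ _ _ _ (mid_eq_zero hD e h k), if_neg hin]
      rfl
    | succ n =>
      refine RCell.ext' rfl rfl (fun _ _ => rfl) (fun _ _ => rfl) fun h k _ _ => ?_
      show Z.s (i + 1) (Z.comp (n + 1) _ _) = _
      rw [Z.s_comp _ _ _ _ (mid_eq e h k _ _), if_neg hin]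
      rfl

theorem tComp (i n : ℕ) (x y : RCell D Z) (e : tFace n x = sFace n y) :
    tFace i (compT hD n x y) =
      if i ≤ n then tFace i y else compT hD n (tFace i x) (tFace i y) := by
  rw [compT_of hD e]
  split_ifs with hin
  · cases n with
    | zero => obtain rfl : i = 0 := Nat.le_zero.1 hin; rfl
    | succ n =>
      cases i with
      | zero =>
        exact RCell.ext' (l'_eq e :) (l'_eq e :) (fun _ _ => tgt_eq e _ _) (fun _ _ => tgt_eq e _ _)
          fun _ _ _ _ => tgt_eq e _ _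
      | succ i =>
        refine RCell.ext' (l_eq e :) (l'_eq e :) (fun _ _ => src_eq e _ _) (fun _ _ => tgt_eq e _ _)
          fun h k _ _ => ?_
        show Z.t (i + 1) (Z.comp (n + 1) _ _) = Z.t (i + 1) _
        rw [Z.t_comp _ _ _ _ (mid_eq e h k _ _), if_pos hin]
  · have e' : tFace n (tFace i x) = sFace n (tFace i y) := by
      rw [tt', min_eq_left (by omega), st', if_pos (by omega), e]
    rw [compT_of hD e']
    obtain ⟨i, rfl⟩ : ∃ i', i = i' + 1 := ⟨i - 1, by omega⟩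
    cases n with
    | zero =>
      refine RCell.ext' rfl rfl (fun _ _ => rfl) (fun _ _ => rfl) fun h k _ _ => ?_
      show Z.t (i + 1) (Z.comp 0 _ _) = _
      rw [Z.t_comp _ _ _ _ (mid_eq_zero hD e h k), if_neg hin]
      rfl
    | succ n =>
      refine RCell.ext' rfl rfl (fun _ _ => rfl) (fun _ _ => rfl) fun h k _ _ => ?_
      show Z.t (i + 1) (Z.comp (n + 1) _ _) = _
      rw [Z.t_comp _ _ _ _ (mid_eq e h k _ _), if_neg hin]
      rfl

theorem idComp (n : ℕ) (x : RCell D Z) : compT hD n (sFace n x) x = x := by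
  have e : tFace n (sFace n x) = sFace n x := by rw [ts', if_neg (lt_irrefl n)]
  rw [compT_of hD e]
  cases n with
  | zero =>
    refine RCell.ext' rfl rfl (fun _ _ => rfl) (fun _ _ => rfl) fun h k h' k' => ?_
    show Z.comp 0 (x.src h) (x.mid _ k) = x.mid h' k'
    rw [← x.src_mid h' k', Z.id_comp]
  | succ n =>
    refine RCell.ext' rfl rfl (fun _ _ => rfl) (fun _ _ => rfl) fun h k h' k' => ?_
    exact Z.id_comp _ _

theorem compId (n : ℕ) (x : RCell D Z) : compT hD n x (tFace n x) = x := by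
  have e : tFace n x = sFace n (tFace n x) := by rw [st', if_neg (lt_irrefl n)]
  rw [compT_of hD e]
  cases n with
  | zero =>
    refine RCell.ext' rfl rfl (fun _ _ => rfl) (fun _ _ => rfl) fun h k h' k' => ?_
    show Z.comp 0 (x.mid h _) (x.tgt _) = x.mid h' k'
    rw [← x.tgt_mid h' k', Z.comp_id]
  | succ n =>
    refine RCell.ext' rfl rfl (fun _ _ => rfl) (fun _ _ => rfl) fun h k h' k' => ?_
    exact Z.comp_id _ _

theorem assoc' (n : ℕ) (x y z : RCell D Z) (e₁ : tFace n x = sFace n y)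
    (e₂ : tFace n y = sFace n z) :
    compT hD n (compT hD n x y) z = compT hD n x (compT hD n y z) := by
  have f₁ : tFace n (compT hD n x y) = sFace n z := by
    rw [tComp hD n n x y e₁, if_pos le_rfl, e₂]
  have f₂ : tFace n x = sFace n (compT hD n y z) := by
    rw [sComp hD n n y z e₂, if_pos le_rfl, e₁]
  rw [compT_of hD f₁, compT_of hD f₂]
  cases n with
  | zero =>
    simp only [compT_of hD e₁, compT_of hD e₂]
    refine RCell.ext' rfl rfl (fun _ _ => rfl) (fun _ _ => rfl) fun h k _ _ => ?_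
    have hy : y.l' ∈ D := hD.out h k
      ⟨x.le.trans (le_trans (le_of_eq (l'_eq_l e₁)) y.le), (le_of_eq (l'_eq_l e₂)).trans z.le⟩
    show Z.comp 0 (Z.comp 0 _ _) _ = Z.comp 0 _ (Z.comp 0 _ _)
    exact Z.assoc 0 _ _ _ (mid_eq_zero hD e₁ h hy)
      (mid_eq_zero hD e₂ (mem_mid hD e₁ h hy).2 k)
  | succ n =>
    simp only [compT_of hD e₁, compT_of hD e₂]
    refine RCell.ext' rfl rfl (fun _ _ => rfl) (fun _ _ => rfl) fun h k _ _ => ?_
    show Z.comp (n + 1) (Z.comp (n + 1) _ _) _ = Z.comp (n + 1) _ (Z.comp (n + 1) _ _)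
    exact Z.assoc _ _ _ _ (mid_eq e₁ h k (l_eq e₁ ▸ h) (l'_eq e₁ ▸ k)) (mid_eq e₂ _ _ _ _)

theorem interchange' (m n : ℕ) (x x' y y' : RCell D Z) (hmn : m < n)
    (e₁ : tFace n x = sFace n x') (e₂ : tFace n y = sFace n y') (e₃ : tFace m x = sFace m y) :
    compT hD m (compT hD n x x') (compT hD n y y') =
      compT hD n (compT hD m x y) (compT hD m x' y') := by
  obtain ⟨n, rfl⟩ : ∃ n', n = n' + 1 := ⟨n - 1, by omega⟩
  have e₄ : tFace m x' = sFace m y' := by
    have h1 := congrArg (tFace m) e₁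
    rw [tt', min_eq_left hmn.le, ts', if_pos hmn] at h1
    have h2 := congrArg (sFace m) e₂
    rw [st', if_pos hmn, ss', min_eq_left hmn.le] at h2
    rw [← h1, e₃, h2]
  have f₁ : tFace m (compT hD (n + 1) x x') = sFace m (compT hD (n + 1) y y') := by
    rw [tComp hD m _ x x' e₁, if_pos hmn.le, sComp hD m _ y y' e₂, if_pos hmn.le, ← e₃]
    have h1 := congrArg (tFace m) e₁
    rwa [tt', min_eq_left hmn.le, ts', if_pos hmn, eq_comm] at h1
  have f₂ : tFace (n + 1) (compT hD m x y) = sFace (n + 1) (compT hD m x' y') := by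
    rw [tComp hD _ m x y e₃, if_neg (by omega), sComp hD _ m x' y' e₄, if_neg (by omega), e₁, e₂]
  rw [compT_of hD f₁, compT_of hD f₂]
  simp only [compT_of hD e₁, compT_of hD e₂, compT_of hD e₃, compT_of hD e₄] at f₁ f₂ ⊢
  cases m with
  | zero =>
    refine RCell.ext' rfl rfl (fun _ _ => rfl) (fun _ _ => rfl) fun h k _ _ => ?_
    show Z.comp 0 (Z.comp (n + 1) _ _) (Z.comp (n + 1) _ _) =
      Z.comp (n + 1) (Z.comp 0 _ _) (Z.comp 0 _ _)
    have hx : x.l' ∈ D := hD.out h k ⟨x.le, by rw [l'_eq_l e₃]; exact y.le⟩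
    exact Z.interchange 0 (n + 1) _ _ _ _ hmn (mid_eq e₁ h hx _ _)
      (mid_eq e₂ (l'_eq_l e₃ ▸ hx) k _ _) (mid_eq_zero hD e₃ h k)
  | succ m =>
    refine RCell.ext' rfl rfl (fun _ _ => rfl) (fun _ _ => rfl) fun h k _ _ => ?_
    show Z.comp (m + 1) (Z.comp (n + 1) _ _) (Z.comp (n + 1) _ _) =
      Z.comp (n + 1) (Z.comp (m + 1) _ _) (Z.comp (m + 1) _ _)
    exact Z.interchange _ _ _ _ _ _ hmn (mid_eq e₁ h k _ _)
      (mid_eq e₂ (l_eq e₃ ▸ h) (l'_eq e₃ ▸ k) _ _) (mid_eq e₃ h k _ _)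

theorem fix_succ {W : OmCat.{u}} {N : ℕ} {z : W.carrier} (h : W.s N z = z) :
    W.s (N + 1) z = z := by
  conv_lhs => rw [← h]
  rw [W.ss, min_eq_right (Nat.le_succ N), h]

/-- The right adjoint of restriction to `D`. -/
def R : OmCat.{u} where
  carrier := RCell D Z
  s := sFace
  t := tFace
  comp := compT hD
  ss := ss'
  st := st'
  ts := ts'
  tt := tt'
  s_comp := sComp hD
  t_comp := tComp hD
  id_comp := idComp hD
  comp_id := compId hD
  assoc := assoc' hD
  interchange := interchange' hD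
  bounded x := by
    by_cases h : x.l ∈ D ∧ x.l' ∈ D
    · obtain ⟨N, hN⟩ := Z.bounded (x.mid h.1 h.2)
      exact ⟨N + 1, RCell.ext' rfl rfl (fun _ _ => rfl) (fun _ _ => rfl)
        fun _ _ _ _ => fix_succ hN⟩
    · exact ⟨1, RCell.ext' rfl rfl (fun _ _ => rfl) (fun _ _ => rfl)
        fun h' k' _ _ => absurd ⟨h', k'⟩ h⟩

/-- The cells of `Z` read off from the part over `D`. -/
def counit : Fun ((R hD (Z := Z)).full fun o => o.l ∈ D) Z where
  toFun x := x.1.mid x.2.1 x.2.2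
  map_s n x := by
    cases n with
    | zero => exact (x.1.src_mid x.2.1 x.2.2).symm
    | succ n => rfl
  map_t n x := by
    cases n with
    | zero => exact (x.1.tgt_mid x.2.1 x.2.2).symm
    | succ n => rfl
  map_comp n x y e := by
    have e' : tFace n x.1 = sFace n y.1 := congrArg Subtype.val e
    have hc : ∀ w, w = compT hD n x.1 y.1 → ∀ (h : w.l ∈ D) (k : w.l' ∈ D),
        w.mid h k = Z.comp n (x.1.mid x.2.1 x.2.2) (y.1.mid y.2.1 y.2.2) := by
      rintro _ rfl
      rw [compT_of hD e']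
      cases n <;> intro h k <;> rfl
    refine hc _ ?_ _ _
    exact congrArg Subtype.val (dif_pos (show (R hD (Z := Z)).t n x.1 = (R hD).s n y.1 from e'))

variable {Y : OmCat.{v}} {lab : Y.carrier → L} (hY : Y.IsLabel lab)
  (φ : Fun (Y.full fun o => lab o ∈ D) Z)

theorem mem_s {y : Y.carrier} (h : lab (Y.s 0 y) ∈ D) :
    lab (Y.s 0 (Y.s 0 y)) ∈ D ∧ lab (Y.t 0 (Y.s 0 y)) ∈ D := by
  rw [Y.ss, Y.ts, if_neg (lt_irrefl 0)]
  exact ⟨h, h⟩

theorem mem_t {y : Y.carrier} (h : lab (Y.t 0 y) ∈ D) :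
    lab (Y.s 0 (Y.t 0 y)) ∈ D ∧ lab (Y.t 0 (Y.t 0 y)) ∈ D := by
  rw [Y.tt, Y.st, if_neg (lt_irrefl 0)]
  exact ⟨h, h⟩

theorem phi_eq {a b : (Y.full fun o => lab o ∈ D).carrier} (h : a.1 = b.1) :
    φ.toFun a = φ.toFun b := congrArg _ (Subtype.ext h)

theorem s_phi (n : ℕ) (a b : (Y.full fun o => lab o ∈ D).carrier) (h : b.1 = Y.s n a.1) :
    Z.s n (φ.toFun a) = φ.toFun b := by
  rw [← φ.map_s]
  exact phi_eq φ h.symm

theorem t_phi (n : ℕ) (a b : (Y.full fun o => lab o ∈ D).carrier) (h : b.1 = Y.t n a.1) :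
    Z.t n (φ.toFun a) = φ.toFun b := by
  rw [← φ.map_t]
  exact phi_eq φ h.symm

open Classical in
theorem comp_phi (n : ℕ) (a b c : (Y.full fun o => lab o ∈ D).carrier)
    (e : Y.t n a.1 = Y.s n b.1) (h : c.1 = Y.comp n a.1 b.1) :
    φ.toFun c = Z.comp n (φ.toFun a) (φ.toFun b) := by
  rw [← φ.map_comp n a b (Subtype.ext e)]
  refine phi_eq φ (h.trans ?_)
  change _ = Subtype.val (dite _ _ _)
  rw [dif_pos e]

/-- The adjunct cell of `y`. -/
def liftCell (y : Y.carrier) : RCell D Z where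
  l := lab (Y.s 0 y)
  l' := lab (Y.t 0 y)
  le := hY y
  src h := φ.toFun ⟨Y.s 0 y, mem_s h⟩
  tgt h := φ.toFun ⟨Y.t 0 y, mem_t h⟩
  mid h k := φ.toFun ⟨y, h, k⟩
  src_obj h := s_phi φ 0 _ _ (by rw [Y.ss]; rfl)
  tgt_obj h := s_phi φ 0 _ _ (by rw [Y.st, if_neg (lt_irrefl 0)])
  src_mid h k := s_phi φ 0 _ _ rfl
  tgt_mid h k := t_phi φ 0 _ _ rfl

theorem lift_s (n : ℕ) (y : Y.carrier) :
    liftCell hY φ (Y.s n y) = sFace n (liftCell hY φ y) := by
  cases n with
  | zero =>
    have h1 : Y.s 0 (Y.s 0 y) = Y.s 0 y := by rw [Y.ss]; rfl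
    have h2 : Y.t 0 (Y.s 0 y) = Y.s 0 y := by rw [Y.ts, if_neg (lt_irrefl 0)]
    exact RCell.ext' (congrArg lab h1) (congrArg lab h2) (fun _ _ => phi_eq φ h1)
      (fun _ _ => phi_eq φ h2) fun _ _ _ _ => phi_eq φ rfl
  | succ n =>
    have h1 : Y.s 0 (Y.s (n + 1) y) = Y.s 0 y := by rw [Y.ss, min_eq_left (Nat.zero_le _)]
    have h2 : Y.t 0 (Y.s (n + 1) y) = Y.t 0 y := by rw [Y.ts, if_pos (Nat.succ_pos n)]
    exact RCell.ext' (congrArg lab h1) (congrArg lab h2) (fun _ _ => phi_eq φ h1)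
      (fun _ _ => phi_eq φ h2) fun _ _ h k => (s_phi φ (n + 1) ⟨y, h, k⟩ _ rfl).symm

theorem lift_t (n : ℕ) (y : Y.carrier) :
    liftCell hY φ (Y.t n y) = tFace n (liftCell hY φ y) := by
  cases n with
  | zero =>
    have h1 : Y.s 0 (Y.t 0 y) = Y.t 0 y := by rw [Y.st, if_neg (lt_irrefl 0)]
    have h2 : Y.t 0 (Y.t 0 y) = Y.t 0 y := by rw [Y.tt]; rfl
    exact RCell.ext' (congrArg lab h1) (congrArg lab h2) (fun _ _ => phi_eq φ h1)
      (fun _ _ => phi_eq φ h2) fun _ _ _ _ => phi_eq φ rfl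
  | succ n =>
    have h1 : Y.s 0 (Y.t (n + 1) y) = Y.s 0 y := by rw [Y.st, if_pos (Nat.succ_pos n)]
    have h2 : Y.t 0 (Y.t (n + 1) y) = Y.t 0 y := by rw [Y.tt, min_eq_left (Nat.zero_le _)]
    exact RCell.ext' (congrArg lab h1) (congrArg lab h2) (fun _ _ => phi_eq φ h1)
      (fun _ _ => phi_eq φ h2) fun _ _ h k => (t_phi φ (n + 1) ⟨y, h, k⟩ _ rfl).symm

/-- The adjunct functor. -/
def lift : Fun Y (R hD (Z := Z)) where
  toFun := liftCell hY φ
  map_s := lift_s hY φ
  map_t := lift_t hY φ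
  map_comp n x y e := by
    have e' : tFace n (liftCell hY φ x) = sFace n (liftCell hY φ y) := by
      rw [← lift_t, ← lift_s, e]
    show _ = compT hD n _ _
    rw [compT_of hD e']
    have h1 : Y.s 0 (Y.comp n x y) = Y.s 0 x := by
      rw [Y.s_comp 0 n x y e, if_pos (Nat.zero_le n)]
    have h2 : Y.t 0 (Y.comp n x y) = Y.t 0 y := by
      rw [Y.t_comp 0 n x y e, if_pos (Nat.zero_le n)]
    cases n with
    | zero =>
      exact RCell.ext' (congrArg lab h1) (congrArg lab h2) (fun _ _ => phi_eq φ h1)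
        (fun _ _ => phi_eq φ h2) fun _ _ h k => comp_phi φ 0 _ _ _ e rfl
    | succ n =>
      have h3 : Y.t 0 y = Y.t 0 x := by
        have h := congrArg (Y.t 0) e
        rwa [Y.tt, min_eq_left (Nat.zero_le _), Y.ts, if_pos (Nat.succ_pos n), eq_comm] at h
      exact RCell.ext' (congrArg lab h1) (congrArg lab (h2.trans h3)) (fun _ _ => phi_eq φ h1)
        (fun _ _ => phi_eq φ (h2.trans h3)) fun _ _ h k => comp_phi φ (n + 1) _ _ _ e rfl

end Restr

open Restr in
theorem restrict : Spec.Restrict.{u, v} := by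
  intro L _ D hD Z
  refine ⟨R hD, RCell.l, counit hD, fun x => x.le, ?_, ?_⟩
  · intro n hn hZ k hk x
    cases k with
    | zero => exact absurd (hn.trans hk) (by simp)
    | succ k =>
      exact RCell.ext' rfl rfl (fun _ _ => rfl) (fun _ _ => rfl)
        fun h k' _ _ => hZ _ hk _
  intro Y lab hY φ
  refine ⟨lift hD hY φ, ⟨fun o ho => congrArg lab ho, Fun.ext fun x => rfl⟩, ?_⟩
  rintro Ψ ⟨h, hΨ⟩
  have hl : ∀ y, (Ψ.toFun y).l = lab (Y.s 0 y) := fun y => by
    rw [← h (Y.s 0 y) (by rw [Y.ss]; rfl), Ψ.map_s]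
    rfl
  have hl' : ∀ y, (Ψ.toFun y).l' = lab (Y.t 0 y) := fun y => by
    rw [← h (Y.t 0 y) (by rw [Y.st, if_neg (lt_irrefl 0)]), Ψ.map_t]
    rfl
  have hmid : ∀ (y : Y.carrier) (p : (Ψ.toFun y).l ∈ D) (q : (Ψ.toFun y).l' ∈ D)
      (p' : lab (Y.s 0 y) ∈ D) (q' : lab (Y.t 0 y) ∈ D),
      (Ψ.toFun y).mid p q = φ.toFun ⟨y, p', q'⟩ := fun y p q p' q' =>
    congrArg (fun F => F.toFun ⟨y, p', q'⟩) hΨ
  have hobj : ∀ (y : Y.carrier) (w : RCell D Z), Ψ.toFun y = w → ∀ (p : w.l ∈ D) (q : w.l' ∈ D)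
      (p' : lab (Y.s 0 y) ∈ D) (q' : lab (Y.t 0 y) ∈ D), w.mid p q = φ.toFun ⟨y, p', q'⟩ := by
    rintro y _ rfl
    exact hmid y
  refine Fun.ext fun y => RCell.ext' (hl y) (hl' y) (fun p p' => ?_) (fun p p' => ?_)
    (hmid y)
  · exact hobj _ _ (Ψ.map_s 0 y) p p (mem_s p').1 (mem_s p').2
  · exact hobj _ _ (Ψ.map_t 0 y) p p (mem_t p').1 (mem_t p').2

end

end Vale.Agent.P213
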